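import Mathlib

/-! Mollification of Hölder maps at a scale `ε`, with the bounds on the error and on the derivative. -/

namespace Vale.Agent.P127.Hoelder

open MeasureTheory Metric Function
open scoped ContDiff Convolution Real

variable {m : ℕ} {F : Type} [NormedAddCommGroup F] [NormedSpace ℝ F] [CompleteSpace F]

/-- The unit bump. -/
noncomputable def unitBump (m : ℕ) : ContDiffBump (0 : Fin m → ℝ) := ⟨1 / 2, 1, by norm_num, by norm_num⟩

/-- The unit mollifier. -/
noncomputable def kern (m : ℕ) : (Fin m → ℝ) → ℝ := (unitBump m).normed volume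

/-- The mollifier at scale `ε`. -/
noncomputable def kernEps (m : ℕ) (ε : ℝ) (y : Fin m → ℝ) : ℝ := (ε ^ m)⁻¹ * kern m (ε⁻¹ • y)

/-- The mollified map. -/
noncomputable def moll (ε : ℝ) (A : (Fin m → ℝ) → F) : (Fin m → ℝ) → F :=
  kernEps m ε ⋆[ContinuousLinearMap.lsmul ℝ ℝ, volume] A

/-- The derivative mass of the unit mollifier. -/
noncomputable def kernMass (m : ℕ) : ℝ := ∫ y, ‖fderiv ℝ (kern m) y‖

lemma kernMass_nonneg (m : ℕ) : 0 ≤ kernMass m := integral_nonneg fun _ => norm_nonneg _

lemma contDiff_kernEps (ε : ℝ) {k : ℕ∞} : ContDiff ℝ k (kernEps m ε) :=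
  contDiff_const.mul ((unitBump m).contDiff_normed.comp (contDiff_id.const_smul ε⁻¹))

lemma kernEps_nonneg {ε : ℝ} (hε : 0 ≤ ε) (y : Fin m → ℝ) : 0 ≤ kernEps m ε y :=
  mul_nonneg (inv_nonneg.2 (pow_nonneg hε m)) ((unitBump m).nonneg_normed _)

lemma kernEps_eq_zero {ε : ℝ} (hε : 0 < ε) {y : Fin m → ℝ} (hy : ε < ‖y‖) :
    kernEps m ε y = 0 := by
  have : ε⁻¹ • y ∉ support (kern m) := by
    rw [kern, ContDiffBump.support_normed_eq, mem_ball, dist_zero_right, not_lt, norm_smul,
      Real.norm_of_nonneg (inv_nonneg.2 hε.le), le_inv_mul_iff₀ hε]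
    simpa [unitBump] using hy.le
  simp [kernEps, notMem_support.1 this]

lemma fderiv_kernEps (ε : ℝ) (y : Fin m → ℝ) :
    fderiv ℝ (kernEps m ε) y = ((ε ^ m)⁻¹ * ε⁻¹) • fderiv ℝ (kern m) (ε⁻¹ • y) := by
  have h1 : HasFDerivAt (fun z : Fin m → ℝ => ε⁻¹ • z)
      (ε⁻¹ • ContinuousLinearMap.id ℝ (Fin m → ℝ)) y := (hasFDerivAt_id y).const_smul ε⁻¹
  have h2 : HasFDerivAt (kern m) (fderiv ℝ (kern m) (ε⁻¹ • y)) (ε⁻¹ • y) :=
    (((unitBump m).contDiff_normed (n := 1)).differentiable (by simp) _).hasFDerivAt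
  have h3 : HasFDerivAt (kernEps m ε) _ y := (h2.comp y h1).const_mul (ε ^ m)⁻¹
  rw [h3.fderiv]
  ext v
  simp [smul_smul]

lemma hasCompactSupport_kernEps {ε : ℝ} (hε : 0 < ε) : HasCompactSupport (kernEps m ε) :=
  HasCompactSupport.intro (isCompact_closedBall 0 ε) fun y hy => by
    rw [mem_closedBall, dist_zero_right, not_le] at hy
    exact kernEps_eq_zero hε hy

lemma integral_kernEps {ε : ℝ} (hε : 0 < ε) : ∫ y, kernEps m ε y = 1 := by
  simp only [kernEps]
  rw [integral_const_mul, Measure.integral_comp_inv_smul_of_nonneg _ _ hε.le, kern,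
    (unitBump m).integral_normed, smul_eq_mul, mul_one]
  simp [hε.ne']

lemma integral_norm_fderiv_kernEps {ε : ℝ} (hε : 0 < ε) :
    ∫ y, ‖fderiv ℝ (kernEps m ε) y‖ = ε⁻¹ * kernMass m := by
  simp only [fderiv_kernEps, norm_smul, norm_mul, norm_inv, norm_pow, Real.norm_of_nonneg hε.le]
  rw [integral_const_mul,
    Measure.integral_comp_inv_smul_of_nonneg volume (fun y => ‖fderiv ℝ (kern m) y‖) hε.le]
  simp only [Module.finrank_fintype_fun_eq_card, Fintype.card_fin, smul_eq_mul, kernMass]
  field_simp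

variable {A : (Fin m → ℝ) → F} {C α ε : ℝ}

omit [CompleteSpace F] in
lemma contDiff_moll (hε : 0 < ε) (hA : Continuous A) {k : ℕ∞} : ContDiff ℝ k (moll ε A) :=
  (hasCompactSupport_kernEps hε).contDiff_convolution_left _ (contDiff_kernEps ε)
    hA.locallyIntegrable

omit [CompleteSpace F] in
lemma moll_apply (ε : ℝ) (A : (Fin m → ℝ) → F) (x : Fin m → ℝ) :
    moll ε A x = ∫ t, kernEps m ε t • A (x - t) := rfl

/-- The mollified map is close to the map. -/
lemma norm_moll_sub_le (hε : 0 < ε) (hA : Continuous A) (hC : 0 ≤ C) (hα : 0 ≤ α)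
    (hH : ∀ x y, ‖A x - A y‖ ≤ C * ‖x - y‖ ^ α) (x : Fin m → ℝ) :
    ‖moll ε A x - A x‖ ≤ C * ε ^ α := by
  have hi : Integrable fun t => kernEps m ε t • A (x - t) :=
    ((contDiff_kernEps ε (k := 0)).continuous.smul (hA.comp (continuous_const.sub continuous_id))
      ).integrable_of_hasCompactSupport (hasCompactSupport_kernEps hε).smul_right
  have hk : Integrable (kernEps m ε) :=
    (contDiff_kernEps ε (k := 0)).continuous.integrable_of_hasCompactSupport
      (hasCompactSupport_kernEps hε)
  have e : moll ε A x - A x = ∫ t, kernEps m ε t • (A (x - t) - A x) := by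
    simp only [smul_sub]
    rw [integral_sub hi (hk.smul_const (A x)), integral_smul_const, integral_kernEps hε, one_smul,
      moll_apply]
  rw [e]
  refine (norm_integral_le_of_norm_le (hk.mul_const (C * ε ^ α))
    (Filter.Eventually.of_forall fun t => ?_)).trans_eq ?_
  · rw [norm_smul, Real.norm_of_nonneg (kernEps_nonneg hε.le t)]
    rcases lt_or_ge ε ‖t‖ with h | h
    · simp [kernEps_eq_zero hε h]
    · refine mul_le_mul_of_nonneg_left ((hH _ _).trans ?_) (kernEps_nonneg hε.le t)
      gcongr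
      simpa using h
  · rw [integral_mul_const, integral_kernEps hε, one_mul]

/-- The derivative of the mollified map blows up no faster than `ε ^ (α - 1)`. -/
lemma norm_fderiv_moll_le (hε : 0 < ε) (hA : Continuous A) (hC : 0 ≤ C) (hα : 0 ≤ α)
    (hH : ∀ x y, ‖A x - A y‖ ≤ C * ‖x - y‖ ^ α) (x v : Fin m → ℝ) :
    ‖fderiv ℝ (moll ε A) x v‖ ≤ C * kernMass m * ε ^ (α - 1) * ‖v‖ := by
  set B : (Fin m → ℝ) → F := fun y => A y - A x
  have hB : Continuous B := hA.sub continuous_const
  have hk : Integrable (kernEps m ε) :=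
    (contDiff_kernEps ε (k := 0)).continuous.integrable_of_hasCompactSupport
      (hasCompactSupport_kernEps hε)
  have e : moll ε B = fun y => moll ε A y - A x := by
    funext y
    have hi : Integrable fun t => kernEps m ε t • A (y - t) :=
      ((contDiff_kernEps ε (k := 0)).continuous.smul (hA.comp (continuous_const.sub continuous_id))
        ).integrable_of_hasCompactSupport (hasCompactSupport_kernEps hε).smul_right
    simp only [moll_apply, B, smul_sub]
    rw [integral_sub hi (hk.smul_const (A x)), integral_smul_const, integral_kernEps hε, one_smul]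
  have hD : fderiv ℝ (moll ε A) x = fderiv ℝ (moll ε B) x := by
    rw [e, fderiv_sub_const]
  rw [hD]
  have h := (hasCompactSupport_kernEps hε).hasFDerivAt_convolution_left
    (ContinuousLinearMap.lsmul ℝ ℝ) (μ := volume) (contDiff_kernEps ε (k := 1))
    (g := B) hB.locallyIntegrable x
  rw [show moll ε B = kernEps m ε ⋆[ContinuousLinearMap.lsmul ℝ ℝ, volume] B from rfl, h.fderiv]
  refine (ContinuousLinearMap.le_of_opNorm_le _ ?_ v).trans le_rfl
  rw [convolution_def]
  have hint : Integrable fun t => ‖fderiv ℝ (kernEps m ε) t‖ :=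
    (((contDiff_kernEps ε (k := 1)).continuous_fderiv (by simp)).integrable_of_hasCompactSupport
      ((hasCompactSupport_kernEps hε).fderiv ℝ)).norm
  refine (norm_integral_le_of_norm_le (hint.mul_const (C * ε ^ α))
    (Filter.Eventually.of_forall fun t => ?_)).trans_eq ?_
  · refine ContinuousLinearMap.opNorm_le_bound _ (by positivity) fun u => ?_
    rw [ContinuousLinearMap.precompL_apply]
    simp only [ContinuousLinearMap.lsmul_apply, norm_smul]
    rcases lt_or_ge ε ‖t‖ with h' | h'
    · have ht : t ∉ tsupport (kernEps m ε) := fun hm => absurd (closure_minimal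
        (fun y hy => mem_closedBall_zero_iff.2 (le_of_not_gt fun hlt => (mem_support.1 hy) (kernEps_eq_zero hε hlt)))
        isClosed_closedBall hm) (by simpa using h')
      have h0 : fderiv ℝ (kernEps m ε) t = 0 :=
        notMem_support.1 fun hm => ht (support_fderiv_subset ℝ hm)
      simp [h0]
    · calc ‖fderiv ℝ (kernEps m ε) t u‖ * ‖B (x - t)‖
          ≤ ‖fderiv ℝ (kernEps m ε) t‖ * ‖u‖ * (C * ε ^ α) := by
            refine mul_le_mul (ContinuousLinearMap.le_opNorm _ _) ((hH _ _).trans ?_)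
              (norm_nonneg _) (by positivity)
            gcongr
            simpa using h'
        _ = _ := by ring
  · rw [integral_mul_const, integral_norm_fderiv_kernEps hε, Real.rpow_sub_one hε.ne']
    field_simp

end Vale.Agent.P127.Hoelder
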