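import Vale.Agent.P127.Hoelder.Piola
import Vale.Agent.P127.Hoelder.Moll

/-!
A Hölder family of segments, one in each direction `(u, 1)`, of exponent `α > (m - 1) / m` based in a
hyperplane covers a set of positive measure.
-/

namespace Vale.Agent.P127.Hoelder

open MeasureTheory Finset Function Filter Metric
open scoped ContDiff Topology

variable {m : ℕ}

/-- The first `m` coordinates. -/
noncomputable def initL (m : ℕ) : X (m + 1) →L[ℝ] X m :=
  ContinuousLinearMap.pi fun i => ContinuousLinearMap.proj (R := ℝ) (φ := fun _ : Fin (m + 1) => ℝ)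
    i.castSucc

/-- The direction `(u, 1)`. -/
def line (u : X m) : X (m + 1) := Fin.snoc u 1

/-- Append a zero coordinate. -/
noncomputable def snocL (m : ℕ) : X m →L[ℝ] X (m + 1) :=
  ContinuousLinearMap.pi
    (Fin.snoc (fun i => ContinuousLinearMap.proj (R := ℝ) (φ := fun _ : Fin m => ℝ) i) 0)

lemma snocL_apply (u : X m) : snocL m u = Fin.snoc u 0 := by
  funext i
  refine Fin.lastCases ?_ (fun j => ?_) i <;> simp [snocL]

lemma line_eq (u : X m) : line u = snocL m u + Pi.single (Fin.last m) 1 := by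
  funext i
  refine Fin.lastCases ?_ (fun j => ?_) i <;> simp [line, snocL_apply]

/-- The family of segments of `A`. -/
noncomputable def sweep (A : X m → X (m + 1)) (x : X (m + 1)) : X (m + 1) :=
  A (initL m x) + x (Fin.last m) • line (initL m x)

variable {A A' : X m → X (m + 1)}

lemma continuous_line : Continuous (line (m := m)) := by
  rw [show line (m := m) = fun u => snocL m u + Pi.single (Fin.last m) 1 from funext line_eq]
  fun_prop

lemma contDiff_line {k : WithTop ℕ∞} : ContDiff ℝ k (line (m := m)) := by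
  rw [show line (m := m) = fun u => snocL m u + Pi.single (Fin.last m) 1 from funext line_eq]
  exact (snocL m).contDiff.add contDiff_const

lemma contDiff_sweep {k : WithTop ℕ∞} (hA : ContDiff ℝ k A) : ContDiff ℝ k (sweep A) :=
  (hA.comp (initL m).contDiff).add
    ((contDiff_apply ℝ ℝ (Fin.last m)).smul (contDiff_line.comp (initL m).contDiff))

lemma initL_dvec_castSucc (j : Fin m) : initL m (dvec j.castSucc) = dvec j := by
  funext i
  by_cases h : i = j <;> simp [initL, dvec, h]

lemma initL_dvec_last : initL m (dvec (Fin.last m)) = 0 := by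
  funext i
  simp [initL, dvec]

lemma hasFDerivAt_sweep (hA : ContDiff ℝ 1 A) (x : X (m + 1)) :
    HasFDerivAt (sweep A) ((fderiv ℝ A (initL m x)).comp (initL m) +
      (x (Fin.last m) • (snocL m).comp (initL m) +
        (ContinuousLinearMap.proj (R := ℝ) (φ := fun _ : Fin (m + 1) => ℝ) (Fin.last m)).smulRight
          (line (initL m x)))) x := by
  have h1 := ((hA.differentiable (by norm_num)) (initL m x)).hasFDerivAt.comp x (initL m).hasFDerivAt
  have h2 : HasFDerivAt (fun y => line (initL m y)) ((snocL m).comp (initL m)) x := by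
    simp only [line_eq]
    exact ((snocL m).comp (initL m)).hasFDerivAt.add_const _
  exact h1.add
    (((ContinuousLinearMap.proj (R := ℝ) (φ := fun _ : Fin (m + 1) => ℝ)
      (Fin.last m)).hasFDerivAt).smul h2)

lemma pd_sweep_castSucc (hA : ContDiff ℝ 1 A) (x : X (m + 1)) (j : Fin m) :
    pd (sweep A) x j.castSucc =
      fderiv ℝ A (initL m x) (dvec j) + x (Fin.last m) • snocL m (dvec j) := by
  rw [pd, (hasFDerivAt_sweep hA x).fderiv]
  simp [initL_dvec_castSucc, show dvec j.castSucc (Fin.last m) = (0 : ℝ) by simp [dvec]]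

lemma pd_sweep_last (hA : ContDiff ℝ 1 A) (x : X (m + 1)) :
    pd (sweep A) x (Fin.last m) = line (initL m x) := by
  rw [pd, (hasFDerivAt_sweep hA x).fderiv]
  simp [initL_dvec_last, show dvec (Fin.last m) (Fin.last m) = (1 : ℝ) by simp [dvec]]

/-- The characteristic polynomial whose value is the Jacobian. -/
noncomputable def jacPoly (A : X m → X (m + 1)) (u : X m) : Polynomial ℝ :=
  (Matrix.of fun j k : Fin m => fderiv ℝ A u (dvec j) (Fin.last m) * u k
    - fderiv ℝ A u (dvec j) k.castSucc).charpoly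

/-- The Jacobian of a sweep is monic of degree `m` in the last coordinate. -/
lemma jac_sweep (hA : ContDiff ℝ 1 A) (x : X (m + 1)) :
    jac (sweep A) x = (jacPoly A (initL m x)).eval (x (Fin.last m)) := by
  set u := initL m x
  set t := x (Fin.last m)
  set e : Fin m ⊕ Fin 1 ≃ Fin (m + 1) := finSumFinEquiv
  have hl : ∀ i : Fin 1, e (Sum.inr i) = Fin.last m := fun i => by
    have : i = 0 := Subsingleton.elim _ _
    subst this
    ext; simp [e]
  have hc : ∀ j : Fin m, e (Sum.inl j) = j.castSucc := fun j => by ext; simp [e]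
  have hM : (Matrix.of (pd (sweep A) x)).submatrix e e = Matrix.fromBlocks
      (Matrix.of fun j k : Fin m => fderiv ℝ A u (dvec j) k.castSucc + if j = k then t else 0)
      (Matrix.of fun (j : Fin m) (_ : Fin 1) => fderiv ℝ A u (dvec j) (Fin.last m))
      (Matrix.of fun (_ : Fin 1) (k : Fin m) => u k) 1 := by
    ext a b
    rcases a with j | i <;> rcases b with k | l
    · simp only [Matrix.submatrix_apply, hc, Matrix.of_apply, pd_sweep_castSucc hA,
        Matrix.fromBlocks_apply₁₁, Pi.add_apply, Pi.smul_apply, snocL_apply, Fin.snoc_castSucc,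
        smul_eq_mul]
      by_cases h : j = k
      · simp [dvec, h, u, t]
      · simp [dvec, h, Ne.symm h, u, t]
    · simp [hc, hl, pd_sweep_castSucc hA, snocL_apply, u]
    · simp [hc, hl, pd_sweep_last hA, line, u]
    · have : i = l := Subsingleton.elim _ _
      simp [hl, pd_sweep_last hA, line, this]
  rw [jac, detC_apply, ← Matrix.det_submatrix_equiv_self e, hM, Matrix.det_fromBlocks_one₂₂,
    jacPoly, Matrix.eval_charpoly]
  congr 1
  ext j k
  simp only [Matrix.sub_apply, Matrix.of_apply, Matrix.mul_apply, Fintype.sum_unique,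
    Matrix.scalar_apply, Matrix.diagonal_apply]
  ring

lemma jacPoly_degree (A : X m → X (m + 1)) (u : X m) :
    (Polynomial.derivative^[m] (jacPoly A u)) = Polynomial.C (m.factorial : ℝ) := by
  set P := jacPoly A u
  have hd : P.natDegree = m := by
    simp [P, jacPoly]
  have h0 : (Polynomial.derivative^[m] P).natDegree = 0 := by
    have := Polynomial.natDegree_iterate_derivative P m
    omega
  rw [Polynomial.eq_C_of_natDegree_eq_zero h0, Polynomial.coeff_iterate_derivative]
  have hc : P.coeff m = 1 := by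
    rw [← hd]
    exact Matrix.charpoly_monic _
  simp [hc, Nat.descFactorial_self]

/-- Integrating by parts `k` times against a polynomial. -/
lemma integral_iteratedDeriv_mul {b : ℝ → ℝ} (hb : ContDiff ℝ ∞ b) (hc : HasCompactSupport b) :
    ∀ (k : ℕ) (P : Polynomial ℝ), ∫ t, iteratedDeriv k b t * P.eval t
      = (-1 : ℝ) ^ k * ∫ t, b t * (Polynomial.derivative^[k] P).eval t
  | 0, P => by simp
  | k + 1, P => by
    have hk : ContDiff ℝ 1 (iteratedDeriv k b) := by
      rw [iteratedDeriv_eq_iterate]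
      exact (hb.iterate_deriv k).of_le (by norm_num)
    have hkc : HasCompactSupport (iteratedDeriv k b) := by
      rw [iteratedDeriv_eq_iterate]
      induction k with
      | zero => simpa using hc
      | succ k ih =>
        rw [Function.iterate_succ_apply']
        exact HasCompactSupport.deriv (ih (by
          rw [iteratedDeriv_eq_iterate]; exact (hb.iterate_deriv k).of_le (by norm_num)))
    have hp := integral_mul_deriv_eq_deriv_mul_of_integrable
      (u := fun t => P.eval t) (v := iteratedDeriv k b)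
      (u' := fun t => P.derivative.eval t) (v' := iteratedDeriv (k + 1) b)
      (fun t _ => P.hasDerivAt t)
      (fun t _ => by
        rw [iteratedDeriv_succ]
        exact ((hk.differentiable (by norm_num)) t).hasDerivAt)
      ((P.continuous.mul (by
        rw [iteratedDeriv_succ]; exact hk.continuous_deriv le_rfl)).integrable_of_hasCompactSupport
          (by rw [iteratedDeriv_succ]; exact hkc.deriv.mul_left))
      ((P.derivative.continuous.mul hk.continuous).integrable_of_hasCompactSupport hkc.mul_left)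
      ((P.continuous.mul hk.continuous).integrable_of_hasCompactSupport hkc.mul_left)
    have e1 : ∫ t, iteratedDeriv (k + 1) b t * P.eval t
        = ∫ t, P.eval t * iteratedDeriv (k + 1) b t := integral_congr_ae (.of_forall fun t => mul_comm _ _)
    rw [e1, hp]
    have e2 : ∫ t, P.derivative.eval t * iteratedDeriv k b t
        = ∫ t, iteratedDeriv k b t * P.derivative.eval t :=
      integral_congr_ae (.of_forall fun t => mul_comm _ _)
    rw [e2, integral_iteratedDeriv_mul hb hc k, Function.iterate_succ_apply]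
    ring

/-- The cut-off. -/
noncomputable def cut (ρ : X m → ℝ) (ψ : ℝ → ℝ) (x : X (m + 1)) : ℝ :=
  ρ (initL m x) * ψ (x (Fin.last m))

/-- The Jacobian of a sweep tested against the cut-off does not depend on the sweep. -/
lemma pull_cut (hA : ContDiff ℝ 2 A) {ρ : X m → ℝ} {b : ℝ → ℝ}
    (hb : ContDiff ℝ ∞ b) (hbc : HasCompactSupport b)
    (hint : Integrable fun x => cut ρ (iteratedDeriv m b) x * (jac (sweep A) x)) :
    ∫ x, cut ρ (iteratedDeriv m b) x * jac (sweep A) x
      = (-1 : ℝ) ^ m * m.factorial * (∫ t, b t) * ∫ u, ρ u := by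
  have he : MeasurePreserving
      (MeasurableEquiv.piFinSuccAbove (fun _ : Fin (m + 1) => ℝ) (Fin.last m)) volume volume :=
    volume_preserving_piFinSuccAbove (fun _ : Fin (m + 1) => ℝ) (Fin.last m)
  set e := MeasurableEquiv.piFinSuccAbove (fun _ : Fin (m + 1) => ℝ) (Fin.last m)
  set F : ℝ × X m → ℝ := fun z => ρ z.2 * (iteratedDeriv m b z.1 * (jacPoly A z.2).eval z.1)
  have hA1 : ContDiff ℝ 1 A := hA.of_le one_le_two
  have hF : ∀ x, cut ρ (iteratedDeriv m b) x * jac (sweep A) x = F (e x) := fun x => by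
    have h2 : (e x).2 = initL m x := by
      funext i
      simp [e, initL, Fin.init]
    have h1 : (e x).1 = x (Fin.last m) := by simp [e]
    simp only [F, h1, h2, cut, jac_sweep hA1]
    ring
  simp only [hF] at hint ⊢
  rw [he.integral_comp' F]
  have hi : Integrable F volume := (he.integrable_comp_emb e.measurableEmbedding).1 hint
  rw [Measure.volume_eq_prod] at hi ⊢
  rw [integral_prod_symm F hi]
  have : ∀ u, ∫ t, F (t, u) = ρ u * ((-1 : ℝ) ^ m * m.factorial * ∫ t, b t) := fun u => by
    simp only [F]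
    rw [integral_const_mul, integral_iteratedDeriv_mul hb hbc, jacPoly_degree]
    simp only [Polynomial.eval_C, integral_mul_const]
    ring
  simp only [this, integral_mul_const]
  ring

lemma norm_line_le (u : X m) : ‖line u‖ ≤ ‖u‖ + 1 := by
  refine (pi_norm_le_iff_of_nonneg (by positivity)).2 fun i => ?_
  refine Fin.lastCases ?_ (fun j => ?_) i
  · simp [line]
  · simpa [line] using (norm_le_pi_norm u j).trans (le_add_of_nonneg_right zero_le_one)

lemma norm_snocL_le (u : X m) : ‖snocL m u‖ ≤ ‖u‖ := by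
  refine (pi_norm_le_iff_of_nonneg (by positivity)).2 fun i => ?_
  refine Fin.lastCases ?_ (fun j => ?_) i
  · simp [snocL_apply]
  · simpa [snocL_apply] using norm_le_pi_norm u j

lemma norm_dvec {n : ℕ} (i : Fin n) : ‖dvec i‖ = 1 := by simp [dvec, Pi.norm_single]

/-- Rows of the derivative of a sweep. -/
lemma norm_pd_sweep_le (hA : ContDiff ℝ 1 A) {x : X (m + 1)} {P T U : ℝ}
    (hP : ∀ j, ‖fderiv ℝ A (initL m x) (dvec j)‖ ≤ P) (hP0 : 0 ≤ P)
    (hT : |x (Fin.last m)| ≤ T) (hU : ‖initL m x‖ ≤ U) (i : Fin (m + 1)) :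
    ‖pd (sweep A) x i‖ ≤ P + T + U + 1 := by
  have hT0 : 0 ≤ T := (abs_nonneg _).trans hT
  have hU0 : 0 ≤ U := (norm_nonneg _).trans hU
  refine Fin.lastCases ?_ (fun j => ?_) i
  · rw [pd_sweep_last hA]
    exact (norm_line_le _).trans (by linarith)
  · rw [pd_sweep_castSucc hA]
    refine (norm_add_le _ _).trans ?_
    rw [norm_smul, Real.norm_eq_abs]
    have h1 : |x (Fin.last m)| * ‖snocL m (dvec j)‖ ≤ T * 1 :=
      mul_le_mul hT ((norm_snocL_le _).trans (norm_dvec j).le) (norm_nonneg _) hT0
    linarith [hP j]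

/-- A bound on an updated determinant whose rows are horizontal but for the last one. -/
lemma abs_detC_update_le_of_horizontal {v : Fin (m + 1) → X (m + 1)} {w : X (m + 1)} {R S : ℝ}
    (hS : 0 ≤ S) (hR : ∀ j : Fin m, ‖v j.castSucc‖ ≤ R) (hl : ‖v (Fin.last m)‖ ≤ S)
    (hv0 : ∀ j : Fin m, v j.castSucc (Fin.last m) = 0) (hw0 : w (Fin.last m) = 0)
    (i : Fin (m + 1)) (hR0 : 0 ≤ R) :
    |detC (m + 1) (update v i w)| ≤ ‖detC (m + 1)‖ * ‖w‖ * (R ^ (m - 1) * S) := by
  induction i using Fin.lastCases with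
  | last =>
    have : detC (m + 1) (update v (Fin.last m) w) = 0 := by
      rw [detC_apply]
      refine Matrix.det_eq_zero_of_column_eq_zero (Fin.last m) fun k => ?_
      induction k using Fin.lastCases with
      | last => simpa using hw0
      | cast j => simpa [update_of_ne (Fin.castSucc_lt_last j).ne] using hv0 j
    rw [this, abs_zero]
    positivity
  | cast i =>
    rw [← Real.norm_eq_abs, mul_assoc]
    refine ((detC (m + 1)).le_opNorm _).trans (mul_le_mul_of_nonneg_left ?_ (norm_nonneg _))
    rw [Fin.prod_univ_castSucc, update_of_ne (Fin.castSucc_lt_last i).ne',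
      ← mul_prod_erase univ _ (mem_univ i), update_self, mul_assoc]
    refine mul_le_mul_of_nonneg_left (mul_le_mul ?_ hl (norm_nonneg _) (by positivity))
      (norm_nonneg _)
    calc ∏ j ∈ univ.erase i, ‖update v i.castSucc w j.castSucc‖ ≤ ∏ _j ∈ univ.erase i, R :=
          prod_le_prod (fun j _ => norm_nonneg _) fun j hj => by
            rw [update_of_ne (fun h => (mem_erase.1 hj).1 (Fin.castSucc_injective _ h))]
            exact hR j
      _ = R ^ (m - 1) := by simp [prod_const, card_erase_of_mem]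

/-- A Hölder family of segments in an open set of directions, based in a hyperplane, covers
positive measure. -/
theorem core {K : Set (X (m + 1))} {u₀ : X m} {r t₀ C α τ : ℝ} (hr : 0 < r) (ht₀ : 0 < t₀)
    (hC : 0 ≤ C) (hα0 : 0 < α) (hα : 0 < α + (α - 1) * ((m - 1 : ℕ) : ℝ)) (hα1 : α ≤ 1)
    (hH : ∀ x y, ‖A x - A y‖ ≤ C * ‖x - y‖ ^ α) (hflat : ∀ x, A x (Fin.last m) = τ)
    (hseg : ∀ u ∈ closedBall u₀ r, ∀ t ∈ Set.Icc 0 t₀, A u + t • line u ∈ K) :
    0 < volume K := by
  by_contra hK
  rw [not_lt, nonpos_iff_eq_zero] at hK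
  have hAc : Continuous A := by
    refine continuous_iff_continuousAt.2 fun x => tendsto_iff_norm_sub_tendsto_zero.2 ?_
    refine squeeze_zero (fun y => norm_nonneg _) (fun y => hH y x) ?_
    have : Continuous fun y => C * ‖y - x‖ ^ α :=
      continuous_const.mul ((continuous_id.sub continuous_const).norm.rpow_const fun _ => Or.inr hα0.le)
    simpa [Real.zero_rpow hα0.ne'] using this.tendsto x
  set Z : Set (X (m + 1)) :=
    (fun z : X m × ℝ => A z.1 + z.2 • line z.1) '' (closedBall u₀ r ×ˢ Set.Icc 0 t₀)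
  have hZc : IsCompact Z := ((isCompact_closedBall u₀ r).prod isCompact_Icc).image
    ((hAc.comp continuous_fst).add (continuous_snd.smul (continuous_line.comp continuous_fst)))
  have hZ0 : volume Z = 0 := measure_mono_null (by
    rintro _ ⟨z, hz, rfl⟩
    exact hseg z.1 hz.1 z.2 hz.2) hK
  -- the cut-off
  let ρb : ContDiffBump u₀ := ⟨r / 2, r, by linarith, by linarith⟩
  let bb : ContDiffBump (t₀ / 2) := ⟨t₀ / 4, t₀ / 2, by linarith, by linarith⟩
  set ρ : X m → ℝ := fun u => ρb u
  set b : ℝ → ℝ := fun t => bb t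
  have hb : ContDiff ℝ ∞ b := bb.contDiff
  have hbc : HasCompactSupport b := bb.hasCompactSupport
  set ψ := iteratedDeriv m b
  set χ := cut ρ ψ
  have hψ : ContDiff ℝ 1 ψ := by
    simp only [ψ, iteratedDeriv_eq_iterate]
    exact (hb.iterate_deriv m).of_le (by norm_num)
  have hψs : ∀ t, t ∉ Set.Icc 0 t₀ → ψ t = 0 := by
    intro t ht
    have hclosed : t ∉ tsupport b := fun hm => ht (by
      have : tsupport b = closedBall (t₀ / 2) (t₀ / 2) := bb.tsupport_eq
      rw [this, mem_closedBall, Real.dist_eq, abs_le] at hm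
      exact ⟨by linarith [hm.1], by linarith [hm.2]⟩)
    have hev : b =ᶠ[𝓝 t] fun _ => (0 : ℝ) := notMem_tsupport_iff_eventuallyEq.1 hclosed
    show iteratedDeriv m b t = 0
    rw [(hev.iteratedDeriv_eq m)]
    simp
  have hρs : ∀ u, u ∉ closedBall u₀ r → ρ u = 0 := fun u hu =>
    image_eq_zero_of_notMem_tsupport (by rw [ρb.tsupport_eq]; exact hu)
  have hχd : ContDiff ℝ 1 χ :=
    (ρb.contDiff.comp (initL m).contDiff).mul (hψ.comp (contDiff_apply ℝ ℝ (Fin.last m)))
  set S : Set (X (m + 1)) := {x | initL m x ∈ closedBall u₀ r ∧ x (Fin.last m) ∈ Set.Icc 0 t₀}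
  have hS : IsCompact S := by
    refine Metric.isCompact_of_isClosed_isBounded ?_ ?_
    · exact (isClosed_closedBall.preimage (initL m).continuous).inter
        (isClosed_Icc.preimage (continuous_apply _))
    · refine (isBounded_iff_forall_norm_le).2 ⟨‖u₀‖ + r + t₀, fun x hx => ?_⟩
      refine (pi_norm_le_iff_of_nonneg (by positivity)).2 fun i => ?_
      refine Fin.lastCases ?_ (fun j => ?_) i
      · rw [Real.norm_eq_abs, abs_of_nonneg hx.2.1]
        linarith [hx.2.2, norm_nonneg u₀]
      · have h1 : ‖x j.castSucc‖ ≤ ‖initL m x‖ := norm_le_pi_norm (initL m x) j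
        have h2 := norm_le_of_mem_closedBall hx.1
        linarith
  have hsub : tsupport χ ⊆ S := closure_minimal (fun x hx => by
    refine ⟨by_contra fun h => hx ?_, by_contra fun h => hx ?_⟩
    · simp [χ, cut, hρs _ h]
    · simp [χ, cut, hψs _ h]) hS.isClosed
  have hχc : HasCompactSupport χ := hS.of_isClosed_subset (isClosed_tsupport χ) hsub
  -- the scales
  set U := ‖u₀‖ + r
  set ε : ℕ → ℝ := fun k => (1 / 2 : ℝ) ^ k
  have hε : ∀ k, 0 < ε k := fun k => by positivity
  have hε1 : ∀ k, ε k ≤ 1 := fun k => pow_le_one₀ (by norm_num) (by norm_num)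
  set Ak : ℕ → X m → X (m + 1) := fun k => moll (ε k) A
  set Φ : ℕ → X (m + 1) → X (m + 1) := fun k => sweep (Ak k)
  have hAk : ∀ k, ContDiff ℝ 2 (Ak k) := fun k => contDiff_moll (hε k) hAc (k := 2)
  have hΦ : ∀ k, ContDiff ℝ 2 (Φ k) := fun k => contDiff_sweep (hAk k)
  set M := 2 * C * kernMass m + t₀ + U + 1
  have hM : 0 < M := by
    have := kernMass_nonneg m
    positivity
  have hone : ∀ k, 1 ≤ ε k ^ (α - 1) := fun k =>
    Real.one_le_rpow_of_pos_of_le_one_of_nonpos (hε k) (hε1 k) (by linarith)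
  have hε2 : ∀ k, ε (k + 1) ^ (α - 1) ≤ 2 * ε k ^ (α - 1) := fun k => by
    have e : ε (k + 1) = ε k * (1 / 2) := pow_succ _ _
    rw [e, Real.mul_rpow (hε k).le (by norm_num), mul_comm (2 : ℝ)]
    gcongr
    calc (1 / 2 : ℝ) ^ (α - 1) ≤ (1 / 2 : ℝ) ^ (-1 : ℝ) :=
          Real.rpow_le_rpow_of_exponent_ge (by norm_num) (by norm_num) (by linarith)
      _ = 2 := by norm_num [Real.rpow_neg_one]
  have hDA : ∀ k u j, ‖fderiv ℝ (Ak k) u (dvec j)‖ ≤ C * kernMass m * ε k ^ (α - 1) := fun k u j => by
    simpa [norm_dvec] using norm_fderiv_moll_le (hε k) hAc hC hα0.le hH u (dvec j)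
  have hclose : ∀ k u, ‖Ak k u - A u‖ ≤ C * ε k ^ α := fun k u =>
    norm_moll_sub_le (hε k) hAc hC hα0.le hH u
  have hAkl : ∀ k u, Ak k u (Fin.last m) = τ := fun k u => by
    have hi : Integrable fun t => kernEps m (ε k) t • A (u - t) :=
      ((contDiff_kernEps (ε k) (k := 0)).continuous.smul
        (hAc.comp (continuous_const.sub continuous_id))).integrable_of_hasCompactSupport
          (hasCompactSupport_kernEps (hε k)).smul_right
    have h := (ContinuousLinearMap.proj (R := ℝ) (φ := fun _ : Fin (m + 1) => ℝ)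
      (Fin.last m)).integral_comp_comm hi
    simp only [ContinuousLinearMap.proj_apply, Pi.smul_apply, smul_eq_mul, hflat] at h
    rw [integral_mul_const, integral_kernEps (hε k), one_mul] at h
    exact h.symm
  set θ := α + (α - 1) * ((m - 1 : ℕ) : ℝ)
  have hθ : 0 < θ := hα
  set q := (1 / 2 : ℝ) ^ θ
  have hq0 : 0 < q := by positivity
  have hq1 : q < 1 := Real.rpow_lt_one (by norm_num) (by norm_num) hθ
  have hεθ : ∀ k, ε k ^ α * (ε k ^ (α - 1)) ^ (m - 1) = q ^ k := fun k => by
    rw [← Real.rpow_mul_natCast (hε k).le, ← Real.rpow_add (hε k), ← Real.rpow_mul_natCast (by norm_num),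
      show ε k = (1 / 2 : ℝ) ^ ((k : ℕ) : ℝ) from (Real.rpow_natCast _ _).symm,
      ← Real.rpow_mul (by norm_num)]
    congr 1
    simp only [θ]
    ring
  -- one change of scale
  set W := ∫ x, ∑ i, |fderiv ℝ χ x (dvec i)|
  have hW : 0 ≤ W := integral_nonneg fun x => sum_nonneg fun i _ => abs_nonneg _
  set B := ‖detC (m + 1)‖ * (3 * C) * (M ^ (m - 1) * M) * W
  have hstep : ∀ (φ : X (m + 1) → ℝ), ContDiff ℝ 1 φ → (∀ y, |φ y| ≤ 1) → ∀ k,
      |pull χ φ (Φ (k + 1)) - pull χ φ (Φ k)| ≤ B * q ^ k := by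
    intro φ hφ hφ1 k
    set w : X (m + 1) → X (m + 1) := fun x => Ak (k + 1) (initL m x) - Ak k (initL m x)
    have hw : ContDiff ℝ 2 w :=
      ((hAk (k + 1)).comp (initL m).contDiff).sub ((hAk k).comp (initL m).contDiff)
    have e : Φ (k + 1) = fun y => Φ k y + w y := funext fun y => by
      simp only [Φ, sweep, w]; abel
    rw [e]
    refine (pull_sub_le hφ (hΦ k) hw hχd hχc (B := ‖detC (m + 1)‖ * (3 * C) * (M ^ (m - 1) * M) * q ^ k)
      fun s hs x hx i => ?_).trans (le_of_eq (by simp only [B]; ring))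
    obtain ⟨hxu, hxt⟩ := hsub hx
    set As : X m → X (m + 1) := fun u => Ak k u + s • (Ak (k + 1) u - Ak k u)
    have hAs : ContDiff ℝ 1 As :=
      ((hAk k).add (((hAk (k + 1)).sub (hAk k)).const_smul s)).of_le one_le_two
    have es : (fun y => Φ k y + s • w y) = sweep As := funext fun y => by
      simp only [Φ, sweep, w, As]; abel
    rw [es, flux, abs_mul]
    refine (mul_le_of_le_one_left (abs_nonneg _) (hφ1 _)).trans ?_
    have hP : ∀ j, ‖fderiv ℝ As (initL m x) (dvec j)‖ ≤ 2 * C * kernMass m * ε k ^ (α - 1) := by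
      intro j
      have h1 := ((hAk k).differentiable (by norm_num)) (initL m x)
      have h2 := ((hAk (k + 1)).differentiable (by norm_num)) (initL m x)
      have hd : HasFDerivAt As (fderiv ℝ (Ak k) (initL m x)
          + s • (fderiv ℝ (Ak (k + 1)) (initL m x) - fderiv ℝ (Ak k) (initL m x))) (initL m x) :=
        h1.hasFDerivAt.add ((h2.hasFDerivAt.sub h1.hasFDerivAt).const_smul s)
      rw [hd.fderiv]
      simp only [add_apply, smul_apply, sub_apply]
      have ha := hDA k (initL m x) j
      have hb' := (hDA (k + 1) (initL m x) j).trans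
        (mul_le_mul_of_nonneg_left (hε2 k) (mul_nonneg hC (kernMass_nonneg m)))
      set a := fderiv ℝ (Ak k) (initL m x) (dvec j)
      set c := fderiv ℝ (Ak (k + 1)) (initL m x) (dvec j)
      have : a + s • (c - a) = (1 - s) • a + s • c := by
        rw [sub_smul, one_smul, smul_sub]; abel
      rw [this]
      refine (norm_add_le _ _).trans ?_
      rw [norm_smul, norm_smul, Real.norm_of_nonneg (by linarith [hs.2]),
        Real.norm_of_nonneg hs.1]
      have h3 := mul_le_mul_of_nonneg_left ha (by linarith [hs.2] : (0 : ℝ) ≤ 1 - s)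
      have h4 := mul_le_mul_of_nonneg_left hb' hs.1
      have : 0 ≤ C * kernMass m * ε k ^ (α - 1) :=
        mul_nonneg (mul_nonneg hC (kernMass_nonneg m)) (Real.rpow_nonneg (hε k).le _)
      nlinarith [hs.1, hs.2]
    have hrow : ∀ i, ‖pd (sweep As) x i‖ ≤ M * ε k ^ (α - 1) := fun i => by
      refine (norm_pd_sweep_le hAs hP (by have := kernMass_nonneg m; positivity)
        (T := t₀) (U := U) ?_ (norm_le_of_mem_closedBall hxu) i).trans ?_
      · rw [abs_of_nonneg hxt.1]; exact hxt.2
      · simp only [M]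
        have h5 : t₀ + U + 1 ≤ (t₀ + U + 1) * ε k ^ (α - 1) :=
          le_mul_of_one_le_right (by positivity) (hone k)
        linarith
    have hw' : ‖w x‖ ≤ 3 * C * ε k ^ α := by
      have h6 : ε (k + 1) ^ α ≤ ε k ^ α := by
        refine Real.rpow_le_rpow (hε _).le ?_ hα0.le
        exact pow_le_pow_of_le_one (by norm_num) (by norm_num) (Nat.le_succ k)
      have h8 : C * ε (k + 1) ^ α ≤ C * ε k ^ α := mul_le_mul_of_nonneg_left h6 hC
      have h7 : 0 ≤ C * ε k ^ α := mul_nonneg hC (Real.rpow_nonneg (hε k).le _)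
      calc ‖w x‖ ≤ ‖Ak (k + 1) (initL m x) - A (initL m x)‖ + ‖A (initL m x) - Ak k (initL m x)‖ :=
            norm_sub_le_norm_sub_add_norm_sub _ _ _
        _ ≤ C * ε (k + 1) ^ α + C * ε k ^ α :=
            add_le_add (hclose _ _) (by rw [norm_sub_rev]; exact hclose _ _)
        _ ≤ _ := by linarith
    have hlast : ‖pd (sweep As) x (Fin.last m)‖ ≤ M := by
      rw [pd_sweep_last hAs]
      refine (norm_line_le _).trans ?_
      have := norm_le_of_mem_closedBall hxu
      have := kernMass_nonneg m
      have : 0 ≤ 2 * C * kernMass m := by positivity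
      simp only [M]
      linarith
    have hv0 : ∀ j : Fin m, pd (sweep As) x j.castSucc (Fin.last m) = 0 := fun j => by
      have h := (hasFDerivAt_apply (𝕜 := ℝ) (F' := fun _ : Fin (m + 1) => ℝ) (Fin.last m) _).comp
        (initL m x) ((hAs.differentiable (by norm_num)) (initL m x)).hasFDerivAt
      have e : (fun f : X (m + 1) => f (Fin.last m)) ∘ As = fun _ => τ := funext fun v => by
        simp [As, hAkl]
      rw [e] at h
      have h0 := congrArg (fun L : X m →L[ℝ] ℝ => L (dvec j)) (h.unique (hasFDerivAt_const τ _))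
      simp only [ContinuousLinearMap.coe_comp, comp_apply, ContinuousLinearMap.proj_apply,
        zero_apply] at h0
      rw [pd_sweep_castSucc hAs]
      simp [h0, snocL_apply]
    refine (abs_detC_update_le_of_horizontal hM.le (fun j => hrow j.castSucc) hlast hv0
      (by simp [w, hAkl]) i (mul_nonneg hM.le (Real.rpow_nonneg (hε k).le _))).trans ?_
    rw [← hεθ k, mul_pow]
    calc ‖detC (m + 1)‖ * ‖w x‖ * (M ^ (m - 1) * (ε k ^ (α - 1)) ^ (m - 1) * M)
        ≤ ‖detC (m + 1)‖ * (3 * C * ε k ^ α) * (M ^ (m - 1) * (ε k ^ (α - 1)) ^ (m - 1) * M) := by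
          have := Real.rpow_nonneg (hε k).le (α - 1)
          gcongr
      _ = _ := by ring
  -- the constant
  set c := (-1 : ℝ) ^ m * m.factorial * (∫ t, b t) * ∫ u, ρ u
  have hc : c ≠ 0 := by
    have h1 : 0 < ∫ t, b t := bb.integral_pos
    have h2 : 0 < ∫ u, ρ u := ρb.integral_pos
    exact mul_ne_zero (mul_ne_zero (mul_ne_zero (pow_ne_zero _ (by norm_num))
      (Nat.cast_ne_zero.2 m.factorial_ne_zero)) h1.ne') h2.ne'
  have hJc : ∀ k, Continuous fun x => jac (Φ k) x := fun k =>
    (detC (m + 1)).cont.comp (continuous_pi fun i =>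
      ((hΦ k).continuous_fderiv (by norm_num)).clm_apply continuous_const)
  have hχJ : ∀ k, Integrable fun x => χ x * jac (Φ k) x := fun k =>
    (hχd.continuous.mul (hJc k)).integrable_of_hasCompactSupport hχc.mul_right
  have hconst : ∀ k, ∫ x, χ x * jac (Φ k) x = c := fun k => pull_cut (hAk k) hb hbc (hχJ k)
  -- test functions that decrease to the indicator of `Z`
  obtain ⟨f, hf_supp, hf, hf_range⟩ := hZc.isClosed.isOpen_compl.exists_contDiff_support_eq (n := 1)
  have hfZ : ∀ y, f y = 0 ↔ y ∈ Z := fun y => by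
    rw [← notMem_support, hf_supp, Set.notMem_compl_iff]
  set φ : ℕ → X (m + 1) → ℝ := fun l y => Real.smoothTransition (2 - l * f y)
  have hφd : ∀ l, ContDiff ℝ 1 (φ l) := fun l =>
    Real.smoothTransition.contDiff.comp (contDiff_const.sub (contDiff_const.mul hf))
  have hφ1 : ∀ l y, |φ l y| ≤ 1 := fun l y =>
    (abs_of_nonneg (Real.smoothTransition.nonneg _)).trans_le (Real.smoothTransition.le_one _)
  have hlim : ∀ l, Tendsto (fun k => pull χ (φ l) (Φ k)) atTop (𝓝 c) := by
    intro l
    set V : Set (X (m + 1)) := {y | (l : ℝ) * f y < 1}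
    have hV : IsOpen V := isOpen_lt (continuous_const.mul hf.continuous) continuous_const
    have hZV : Z ⊆ V := fun y hy => by simp [V, (hfZ y).2 hy]
    obtain ⟨δ, hδ, hδV⟩ := hZc.exists_thickening_subset_open hV hZV
    have hε0 : Tendsto (fun k => C * ε k ^ α) atTop (𝓝 0) := by
      have h := ((tendsto_pow_atTop_nhds_zero_of_lt_one (show (0 : ℝ) ≤ 1 / 2 by norm_num)
        (by norm_num)).rpow_const (p := α) (Or.inr hα0.le)).const_mul C
      simpa only [Real.zero_rpow hα0.ne', mul_zero, ε] using h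
    refine tendsto_const_nhds.congr' ?_
    filter_upwards [hε0.eventually (gt_mem_nhds hδ)] with k hk
    rw [← hconst k, pull]
    refine integral_congr_ae (Eventually.of_forall fun x => ?_)
    by_cases hx : x ∈ tsupport χ
    · obtain ⟨hxu, hxt⟩ := hsub hx
      have hy : sweep A x ∈ Z := ⟨(initL m x, x (Fin.last m)), ⟨hxu, hxt⟩, rfl⟩
      have hd : ‖Φ k x - sweep A x‖ ≤ C * ε k ^ α := by
        simpa [Φ, sweep] using hclose k (initL m x)
      have hin : Φ k x ∈ V := hδV (mem_thickening_iff.2 ⟨_, hy, by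
        rw [dist_eq_norm]; exact lt_of_le_of_lt hd hk⟩)
      have h1 : φ l (Φ k x) = 1 := Real.smoothTransition.one_of_one_le (by
        have : (l : ℝ) * f (Φ k x) < 1 := hin
        linarith)
      simp [h1]
    · simp [image_eq_zero_of_notMem_tsupport hx]
  have hgeo : ∀ l k₀, |c - pull χ (φ l) (Φ k₀)| ≤ B * q ^ k₀ / (1 - q) := by
    intro l k₀
    have hB : 0 ≤ B := by positivity
    have h := fun j : ℕ => hstep (φ l) (hφd l) (hφ1 l) (k₀ + j)
    refine le_of_tendsto (((hlim l).comp (tendsto_add_atTop_nat k₀)).sub_const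
      (pull χ (φ l) (Φ k₀))).abs (Eventually.of_forall fun N => ?_)
    have e : pull χ (φ l) (Φ (N + k₀)) - pull χ (φ l) (Φ k₀)
        = ∑ j ∈ range N, (pull χ (φ l) (Φ (k₀ + j + 1)) - pull χ (φ l) (Φ (k₀ + j))) := by
      have := sum_range_sub (fun j => pull χ (φ l) (Φ (k₀ + j))) N
      simpa [add_comm N k₀, add_assoc] using this.symm
    simp only [Function.comp_apply]
    rw [e]
    refine (abs_sum_le_sum_abs _ _).trans ((sum_le_sum fun j _ => h j).trans ?_)
    simp only [pow_add]
    rw [← mul_sum, ← mul_sum, ← mul_assoc, div_eq_mul_inv]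
    refine mul_le_mul_of_nonneg_left ?_ (by positivity)
    have := (summable_geometric_of_lt_one hq0.le hq1).sum_le_tsum (range N) fun j _ => by positivity
    rwa [tsum_geometric_of_lt_one hq0.le hq1] at this
  have hnull : ∀ k, Tendsto (fun l => pull χ (φ l) (Φ k)) atTop (𝓝 0) := by
    intro k
    rw [← integral_zero (X (m + 1)) ℝ]
    refine tendsto_integral_of_dominated_convergence (fun x => |χ x * jac (Φ k) x|) (fun l => ?_)
      (hχJ k).abs (fun l => Eventually.of_forall fun x => ?_) ?_
    · exact (hχd.continuous.mul (((hφd l).continuous.comp (hΦ k).continuous).mul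
        (hJc k))).aestronglyMeasurable
    · rw [Real.norm_eq_abs, abs_mul, abs_mul, abs_mul]
      exact mul_le_mul_of_nonneg_left (mul_le_of_le_one_left (abs_nonneg _) (hφ1 _ _)) (abs_nonneg _)
    · filter_upwards [jac_ae_zero_of_null ((hΦ k).of_le one_le_two) hZc.measurableSet hZ0] with x hx
      by_cases hxz : Φ k x ∈ Z
      · simp [hx hxz]
      · have hpos : 0 < f (Φ k x) := lt_of_le_of_ne (hf_range ⟨_, rfl⟩).1
          (fun h => hxz ((hfZ _).1 h.symm))
        have : Tendsto (fun l : ℕ => φ l (Φ k x)) atTop (𝓝 0) := by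
          refine tendsto_const_nhds.congr' ?_
          filter_upwards [(tendsto_natCast_atTop_atTop.atTop_mul_const hpos).eventually
            (eventually_ge_atTop 2)] with l hl
          exact (Real.smoothTransition.zero_of_nonpos (by linarith)).symm
        simpa using ((this.mul_const (jac (Φ k) x)).const_mul (χ x))
  have hsmall : ∀ k, |c| ≤ B * q ^ k / (1 - q) := fun k => by
    have := le_of_tendsto ((hnull k).const_sub c).abs (Eventually.of_forall fun l => hgeo l k)
    simpa using this
  have : |c| ≤ 0 := by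
    refine ge_of_tendsto (x := atTop) (f := fun k => B * q ^ k / (1 - q)) ?_
      (Eventually.of_forall hsmall)
    simpa using ((tendsto_pow_atTop_nhds_zero_of_lt_one hq0.le hq1).const_mul B).div_const (1 - q)
  exact hc (abs_nonpos_iff.1 this)

end Vale.Agent.P127.Hoelder
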