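import Mathlib

/-!
Jacobians as multilinear forms of the partial derivatives: the Piola identity, the variation of a
pulled back volume form, and the vanishing of the Jacobian over a null image.
-/

namespace Vale.Agent.P127.Hoelder

open MeasureTheory Finset Function
open scoped ContDiff

/-- The coordinate space. -/
abbrev X (n : ℕ) : Type := Fin n → ℝ

variable {n : ℕ}

/-- The coordinate vectors. -/
noncomputable def dvec (i : Fin n) : X n := Pi.single i 1

/-- The determinant of a family of rows. -/
noncomputable def detC (n : ℕ) : ContinuousMultilinearMap ℝ (fun _ : Fin n => X n) ℝ where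
  toMultilinearMap := (Matrix.detRowAlternating : (X n) [⋀^Fin n]→ₗ[ℝ] ℝ).toMultilinearMap
  cont := by
    show Continuous fun v : Fin n → X n => Matrix.det (Matrix.of v)
    exact Continuous.matrix_det continuous_id

lemma detC_apply (v : Fin n → X n) : detC n v = Matrix.det (Matrix.of v) := rfl

/-- The partial derivatives. -/
noncomputable def pd (H : X n → X n) (x : X n) (i : Fin n) : X n := fderiv ℝ H x (dvec i)

/-- The Jacobian. -/
noncomputable def jac (H : X n → X n) (x : X n) : ℝ := detC n (pd H x)

lemma jac_eq_det (H : X n → X n) (x : X n) : jac H x = (fderiv ℝ H x).det := by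
  rw [ContinuousLinearMap.det, ← LinearMap.det_toMatrix', jac, detC_apply, ← Matrix.det_transpose]
  congr 1

lemma contDiff_pd {H : X n → X n} (hH : ContDiff ℝ 2 H) (i : Fin n) :
    ContDiff ℝ 1 fun x => pd H x i :=
  (ContinuousLinearMap.apply ℝ (X n) (dvec i)).contDiff.comp
    (hH.fderiv_right (le_of_eq (by norm_num)))

lemma hasFDerivAt_pd {H : X n → X n} (hH : ContDiff ℝ 2 H) (x : X n) (i : Fin n) :
    HasFDerivAt (fun y => pd H y i)
      ((ContinuousLinearMap.apply ℝ (X n) (dvec i)).comp (fderiv ℝ (fderiv ℝ H) x)) x :=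
  (ContinuousLinearMap.apply ℝ (X n) (dvec i)).hasFDerivAt.comp x
    (((hH.fderiv_right (m := 1) (by norm_num)).differentiable (by norm_num)) x).hasFDerivAt

/-- Cramer: replacing each row by `w` expands `w` in the rows. -/
lemma sum_mul_update (v : Fin n → X n) (w : X n) (l : X n →L[ℝ] ℝ) :
    ∑ i, l (v i) * detC n (update v i w) = l w * detC n v := by
  have h := Matrix.mulVec_cramer (Matrix.of v).transpose w
  rw [Matrix.det_transpose] at h
  have hc : ∀ i, Matrix.cramer (Matrix.of v).transpose w i = detC n (update v i w) := fun i => by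
    rw [Matrix.cramer_transpose_apply, detC_apply]
    rfl
  have hw : detC n v • w = ∑ i, detC n (update v i w) • v i := by
    rw [detC_apply, ← h]
    funext k
    rw [Finset.sum_apply]
    simp only [Matrix.mulVec, dotProduct, Matrix.transpose_apply, Matrix.of_apply, hc,
      Pi.smul_apply, smul_eq_mul]
    exact sum_congr rfl fun i _ => mul_comm _ _
  have := congrArg l hw
  rw [map_smul, map_sum, smul_eq_mul] at this
  rw [mul_comm (l w), this]
  exact sum_congr rfl fun i _ => by rw [map_smul, smul_eq_mul, mul_comm]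

/-- The Piola identity: mixed second derivatives cancel. -/
lemma sum_offdiag_eq_zero (v : Fin n → X n) (w : X n) (H2 : Fin n → Fin n → X n)
    (hs : ∀ i j, H2 i j = H2 j i) :
    ∑ i, ∑ j ∈ univ.erase i, detC n (update (update v i w) j (H2 i j)) = 0 := by
  set f : Fin n → Fin n → ℝ := fun i j =>
    if j = i then 0 else detC n (update (update v i w) j (H2 i j))
  have hf : ∀ i j, f j i = -f i j := by
    intro i j
    by_cases h : i = j
    · simp [f, h]
    · have h' : ¬ j = i := fun e => h e.symm
      simp only [f, h, h', if_false]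
      have e : update (update v j w) i (H2 j i) =
          update (update v i w) j (H2 i j) ∘ Equiv.swap i j := by
        funext k
        rw [Function.comp_apply]
        rcases eq_or_ne k i with rfl | hki
        · rw [Equiv.swap_apply_left, update_self, update_self, hs]
        · rcases eq_or_ne k j with rfl | hkj
          · rw [Equiv.swap_apply_right, update_of_ne hki, update_self, update_of_ne h, update_self]
          · rw [Equiv.swap_apply_of_ne_of_ne hki hkj, update_of_ne hki, update_of_ne hkj,
              update_of_ne hkj, update_of_ne hki]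
      rw [e]
      exact (Matrix.detRowAlternating : (X n) [⋀^Fin n]→ₗ[ℝ] ℝ).map_swap _ h
  have h2 : ∀ i, ∑ j ∈ univ.erase i, detC n (update (update v i w) j (H2 i j)) = ∑ j, f i j := by
    intro i
    rw [← add_sum_erase univ (f i) (mem_univ i)]
    simp only [f, if_pos, zero_add]
    exact sum_congr rfl fun j hj => by rw [if_neg (mem_erase.1 hj).1]
  simp only [h2]
  have h3 : ∑ i, ∑ j, f i j = -∑ i, ∑ j, f i j := by
    conv_lhs => rw [sum_comm]
    rw [← sum_neg_distrib]
    exact sum_congr rfl fun i _ => by rw [← sum_neg_distrib]; exact sum_congr rfl fun j _ => hf _ _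
  linarith

variable {φ χ : X n → ℝ} {H w : X n → X n}

/-- The flux of the moving pulled back form. -/
noncomputable def flux (φ : X n → ℝ) (H w : X n → X n) (i : Fin n) (x : X n) : ℝ :=
  φ (H x) * detC n (update (pd H x) i (w x))

/-- The variation of the pulled back form along `w`. -/
noncomputable def vari (φ : X n → ℝ) (H w : X n → X n) (x : X n) : ℝ :=
  fderiv ℝ φ (H x) (w x) * jac H x + φ (H x) * ∑ i, detC n (update (pd H x) i (pd w x i))

lemma contDiff_flux (hφ : ContDiff ℝ 1 φ) (hH : ContDiff ℝ 2 H) (hw : ContDiff ℝ 1 w) (i : Fin n) :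
    ContDiff ℝ 1 (flux φ H w i) := by
  refine (hφ.comp (hH.of_le one_le_two)).mul ((detC n).contDiff.comp (contDiff_pi.2 fun j => ?_))
  rcases eq_or_ne j i with rfl | h
  · simpa only [update_self] using hw
  · simpa only [update_of_ne h] using contDiff_pd hH j

lemma divergence_flux (hφ : ContDiff ℝ 1 φ) (hH : ContDiff ℝ 2 H) (hw : ContDiff ℝ 1 w) (x : X n) :
    ∑ i, fderiv ℝ (flux φ H w i) x (dvec i) = vari φ H w x := by
  set D2 := fderiv ℝ (fderiv ℝ H) x
  set L : Fin n → Fin n → X n →L[ℝ] X n := fun i j => if j = i then fderiv ℝ w x else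
    (ContinuousLinearMap.apply ℝ (X n) (dvec j)).comp D2
  have hrow : ∀ i, HasFDerivAt (fun y => update (pd H y) i (w y))
      (ContinuousLinearMap.pi (L i)) x := by
    intro i
    refine hasFDerivAt_pi.2 fun j => ?_
    rcases eq_or_ne j i with rfl | h
    · simpa only [L, update_self, if_pos] using ((hw.differentiable (by norm_num)) x).hasFDerivAt
    · simpa only [L, update_of_ne h, if_neg h] using hasFDerivAt_pd hH x j
  have hfl : ∀ i, fderiv ℝ (flux φ H w i) x (dvec i) =
      φ (H x) * (detC n (update (pd H x) i (pd w x i)) +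
        ∑ j ∈ univ.erase i, detC n (update (update (pd H x) i (w x)) j (D2 (dvec i) (dvec j))))
      + detC n (update (pd H x) i (w x)) * fderiv ℝ φ (H x) (pd H x i) := by
    intro i
    have h1 : HasFDerivAt (fun y => φ (H y))
        ((fderiv ℝ φ (H x)).comp (fderiv ℝ H x)) x :=
      (((hφ.differentiable (by norm_num)) (H x)).hasFDerivAt).comp x
        ((hH.differentiable (by norm_num)) x).hasFDerivAt
    have h2 := ((detC n).hasFDerivAt (x := update (pd H x) i (w x))).comp x (hrow i)
    have h3 : HasFDerivAt (flux φ H w i) _ x := h1.mul h2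
    rw [h3.fderiv]
    simp only [add_apply, smul_apply, ContinuousLinearMap.coe_comp, comp_apply, smul_eq_mul,
      ContinuousMultilinearMap.linearDeriv_apply, ContinuousLinearMap.pi_apply]
    congr 2
    rw [← add_sum_erase univ _ (mem_univ i)]
    congr 1
    · simp [L, pd, update_idem]
    · refine sum_congr rfl fun j hj => ?_
      simp [L, (mem_erase.1 hj).1]
  have hs : ∀ i j, D2 (dvec i) (dvec j) = D2 (dvec j) (dvec i) := fun i j =>
    (hH.contDiffAt.isSymmSndFDerivAt (by simp)).eq _ _
  simp only [hfl, sum_add_distrib, ← mul_sum, sum_offdiag_eq_zero (pd H x) (w x) _ hs, vari,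
    add_zero]
  rw [jac, ← sum_mul_update (pd H x) (w x) (fderiv ℝ φ (H x))]
  rw [add_comm, add_left_inj]
  exact sum_congr rfl fun i _ => mul_comm _ _

lemma integral_vari (hφ : ContDiff ℝ 1 φ) (hH : ContDiff ℝ 2 H) (hw : ContDiff ℝ 1 w)
    (hχ : ContDiff ℝ 1 χ) (hc : HasCompactSupport χ) :
    ∫ x, χ x * vari φ H w x = -∫ x, ∑ i, fderiv ℝ χ x (dvec i) * flux φ H w i x := by
  have hdc : ∀ i, HasCompactSupport fun x => fderiv ℝ χ x (dvec i) := fun i =>
    hc.fderiv_apply ℝ _
  have hfc : ∀ i, Continuous fun x => fderiv ℝ χ x (dvec i) := fun i =>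
    (hχ.continuous_fderiv (by norm_num)).clm_apply continuous_const
  have hF := contDiff_flux hφ hH hw
  have hgc : ∀ i, Continuous fun x => fderiv ℝ (flux φ H w i) x (dvec i) := fun i =>
    ((hF i).continuous_fderiv (by norm_num)).clm_apply continuous_const
  have i1 : ∀ i, Integrable fun x => χ x * fderiv ℝ (flux φ H w i) x (dvec i) := fun i =>
    (hχ.continuous.mul (hgc i)).integrable_of_hasCompactSupport hc.mul_right
  have i2 : ∀ i, Integrable fun x => fderiv ℝ χ x (dvec i) * flux φ H w i x := fun i =>
    ((hfc i).mul (hF i).continuous).integrable_of_hasCompactSupport (hdc i).mul_right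
  simp only [← divergence_flux hφ hH hw, mul_sum]
  rw [integral_finsetSum _ fun i _ => i1 i, integral_finsetSum _ fun i _ => i2 i,
    ← sum_neg_distrib]
  refine sum_congr rfl fun i _ => ?_
  exact integral_mul_fderiv_eq_neg_fderiv_mul_of_integrable (i2 i) (i1 i)
    ((hχ.continuous.mul (hF i).continuous).integrable_of_hasCompactSupport hc.mul_right)
    (fun y _ => (hχ.differentiable (by norm_num)) y) fun y _ => ((hF i).differentiable (by norm_num)) y

/-- The pulled back integral. -/
noncomputable def pull (χ φ : X n → ℝ) (H : X n → X n) : ℝ := ∫ x, χ x * (φ (H x) * jac H x)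

lemma pd_add_smul (hH : ContDiff ℝ 1 H) (hw : ContDiff ℝ 1 w) (s : ℝ) (x : X n) :
    pd (fun y => H y + s • w y) x = pd H x + s • pd w x := by
  funext i
  have h : HasFDerivAt (fun y => H y + s • w y) (fderiv ℝ H x + s • fderiv ℝ w x) x :=
    ((hH.differentiable (by norm_num)) x).hasFDerivAt.add
      (((hw.differentiable (by norm_num)) x).hasFDerivAt.const_smul s)
  simp [pd, h.fderiv]

lemma hasDerivAt_line (hφ : ContDiff ℝ 1 φ) (hH : ContDiff ℝ 1 H) (hw : ContDiff ℝ 1 w) (x : X n)
    (s : ℝ) :
    HasDerivAt (fun r => φ (H x + r • w x) * jac (fun y => H y + r • w y) x)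
      (vari φ (fun y => H y + s • w y) w x) s := by
  simp only [jac, vari, pd_add_smul hH hw]
  have h0 : ∀ (a b : X n), HasDerivAt (fun r : ℝ => a + r • b) b s := fun a b => by
    simpa using ((hasDerivAt_id s).smul_const b).const_add a
  have h1 : HasDerivAt (fun r => φ (H x + r • w x)) (fderiv ℝ φ (H x + s • w x) (w x)) s :=
    ((hφ.differentiable (by norm_num)) _).hasFDerivAt.comp_hasDerivAt s (h0 _ _)
  have h2 : HasDerivAt (fun r => pd H x + r • pd w x) (pd w x) s := by
    simpa using ((hasDerivAt_id s).smul_const (pd w x)).const_add (pd H x)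
  have h3 := ((detC n).hasFDerivAt (x := pd H x + s • pd w x)).comp_hasDerivAt s h2
  have h4 := h1.mul h3
  simp only [ContinuousMultilinearMap.linearDeriv_apply] at h4
  exact h4

/-- Two pulled back integrals differ by the flux through the cut-off. -/
theorem pull_sub_le (hφ : ContDiff ℝ 1 φ) (hH : ContDiff ℝ 2 H) (hw : ContDiff ℝ 2 w)
    (hχ : ContDiff ℝ 1 χ) (hc : HasCompactSupport χ) {B : ℝ}
    (hB : ∀ s ∈ Set.Icc (0 : ℝ) 1, ∀ x ∈ tsupport χ, ∀ i,
      |flux φ (fun y => H y + s • w y) w i x| ≤ B) :
    |pull χ φ (fun y => H y + w y) - pull χ φ H| ≤ B * ∫ x, ∑ i, |fderiv ℝ χ x (dvec i)| := by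
  set G : X n → ℝ → ℝ := fun x s => χ x * vari φ (fun y => H y + s • w y) w x
  have hH1 : ContDiff ℝ 1 H := hH.of_le one_le_two
  have hw1 : ContDiff ℝ 1 w := hw.of_le one_le_two
  have hpc : ∀ (f : X n → X n), ContDiff ℝ 1 f → Continuous fun x => pd f x := fun f hf =>
    continuous_pi fun i => (hf.continuous_fderiv (by norm_num)).clm_apply continuous_const
  have hJc : ∀ (f : X n → X n), ContDiff ℝ 1 f → Continuous fun x => jac f x := fun f hf =>
    (detC n).cont.comp (hpc f hf)
  have hG : Continuous fun q : X n × ℝ => G q.1 q.2 := by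
    have hp : Continuous fun q : X n × ℝ => pd H q.1 + q.2 • pd w q.1 :=
      ((hpc H hH1).comp continuous_fst).add (continuous_snd.smul ((hpc w hw1).comp continuous_fst))
    have hy : Continuous fun q : X n × ℝ => H q.1 + q.2 • w q.1 :=
      (hH.continuous.comp continuous_fst).add
        (continuous_snd.smul (hw.continuous.comp continuous_fst))
    simp only [G, vari, jac, pd_add_smul hH1 hw1]
    refine (hχ.continuous.comp continuous_fst).mul (((((hφ.continuous_fderiv (by norm_num)).comp
      hy).clm_apply (hw.continuous.comp continuous_fst)).mul ((detC n).cont.comp hp)).add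
        ((hφ.continuous.comp hy).mul (continuous_finsetSum _ fun i _ => ?_)))
    exact (detC n).cont.comp (hp.update i (((continuous_apply i).comp (hpc w hw1)).comp continuous_fst))
  have hpt : ∀ x, χ x * (φ (H x + w x) * jac (fun y => H y + w y) x) - χ x * (φ (H x) * jac H x)
      = ∫ s in (0 : ℝ)..1, G x s := by
    intro x
    have hcont : Continuous fun s => G x s := hG.comp (continuous_const.prodMk continuous_id)
    rw [intervalIntegral.integral_eq_sub_of_hasDerivAt
      (f := fun r => χ x * (φ (H x + r • w x) * jac (fun y => H y + r • w y) x))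
      (fun s _ => (hasDerivAt_line hφ hH1 hw1 x s).const_mul (χ x))
      (hcont.intervalIntegrable _ _)]
    simp
  have hsupp : HasCompactSupport fun q : X n × ℝ => (Set.Icc (0 : ℝ) 1).indicator (G q.1) q.2 := by
    refine HasCompactSupport.intro ((hc.isCompact).prod (isCompact_Icc (a := (0 : ℝ)) (b := 1)))
      fun q hq => ?_
    rcases not_and_or.1 (fun h => hq (Set.mem_prod.2 h)) with h | h
    · simp [G, image_eq_zero_of_notMem_tsupport h]
    · exact Set.indicator_of_notMem h _
  have hint : Integrable (uncurry G) ((volume : Measure (X n)).prod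
      (volume.restrict (Set.Ioc (0 : ℝ) 1))) := by
    have h1 : IntegrableOn (fun q : X n × ℝ => G q.1 q.2) (tsupport χ ×ˢ Set.Icc (0 : ℝ) 1)
        ((volume : Measure (X n)).prod volume) :=
      hG.continuousOn.integrableOn_compact (hc.isCompact.prod isCompact_Icc)
    have h2 : IntegrableOn (fun q : X n × ℝ => G q.1 q.2) (Set.univ ×ˢ Set.Ioc (0 : ℝ) 1)
        ((volume : Measure (X n)).prod volume) :=
      h1.of_forall_sdiff_eq_zero (MeasurableSet.univ.prod measurableSet_Ioc) fun q hq => by
        have : q.1 ∉ tsupport χ := fun h =>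
          hq.2 (Set.mem_prod.2 ⟨h, Set.Ioc_subset_Icc_self hq.1.2⟩)
        simp [G, image_eq_zero_of_notMem_tsupport this]
    rw [IntegrableOn, ← Measure.prod_restrict, Measure.restrict_univ] at h2
    exact h2
  have hi : ∀ (f : X n → X n), ContDiff ℝ 1 f → Integrable fun x => χ x * (φ (f x) * jac f x) :=
    fun f hf => (hχ.continuous.mul ((hφ.continuous.comp hf.continuous).mul
      (hJc f hf))).integrable_of_hasCompactSupport hc.mul_right
  rw [pull, pull, ← integral_sub (hi _ (hH1.add hw1)) (hi _ hH1)]
  simp only [hpt, intervalIntegral.integral_of_le zero_le_one]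
  rw [integral_integral_swap hint]
  have hbound : ∀ s ∈ Set.Ioc (0 : ℝ) 1,
      ‖∫ x, G x s‖ ≤ B * ∫ x, ∑ i, |fderiv ℝ χ x (dvec i)| := by
    intro s hs
    simp only [G]
    rw [integral_vari hφ (hH.add (hw.const_smul s)) hw1 hχ hc, norm_neg, ← integral_const_mul]
    have hic : Integrable fun x => ∑ i, |fderiv ℝ χ x (dvec i)| :=
      integrable_finsetSum _ fun i _ => (((hχ.continuous_fderiv (by norm_num)).clm_apply
        continuous_const).integrable_of_hasCompactSupport (hc.fderiv_apply ℝ _)).abs
    refine norm_integral_le_of_norm_le (hic.const_mul B) (Filter.Eventually.of_forall fun x => ?_)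
    rw [Real.norm_eq_abs, mul_sum]
    refine (abs_sum_le_sum_abs _ _).trans (sum_le_sum fun i _ => ?_)
    rw [abs_mul, mul_comm B]
    by_cases hx : x ∈ tsupport χ
    · exact mul_le_mul_of_nonneg_left (hB s (Set.Ioc_subset_Icc_self hs) x hx i) (abs_nonneg _)
    · rw [image_eq_zero_of_notMem_tsupport (f := fun y => fderiv ℝ χ y (dvec i))
        (fun h => hx (tsupport_fderiv_apply_subset ℝ (dvec i) h))]
      simp
  rw [← Real.norm_eq_abs]
  refine (norm_setIntegral_le_of_norm_le_const (by simp) hbound).trans ?_
  simp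

/-- The Jacobian vanishes almost everywhere over a null set of values. -/
theorem jac_ae_zero_of_null (hH : ContDiff ℝ 1 H) {N : Set (X n)} (hN : MeasurableSet N)
    (hN0 : volume N = 0) : ∀ᵐ x, H x ∈ N → jac H x = 0 := by
  rw [ae_iff]
  simp only [Classical.not_imp]
  refine measure_null_of_locally_null _ fun x hx => ?_
  have hd : (fderiv ℝ H x).det ≠ 0 := by rw [← jac_eq_det]; exact hx.2
  have hst : HasStrictFDerivAt H
      (((fderiv ℝ H x).toContinuousLinearEquivOfDetNeZero hd : X n ≃L[ℝ] X n) : X n →L[ℝ] X n) x := by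
    rw [ContinuousLinearMap.coe_toContinuousLinearEquivOfDetNeZero]
    exact hH.contDiffAt.hasStrictFDerivAt (by norm_num)
  set e := hst.toOpenPartialHomeomorph H with he
  set U := e.source ∩ H ⁻¹' N
  have hUm : MeasurableSet U := e.open_source.measurableSet.inter (hH.continuous.measurable hN)
  have hinj : Set.InjOn H U := fun a ha b hb hab => e.injOn ha.1 hb.1 (by simpa [he] using hab)
  have h0 := lintegral_abs_det_fderiv_eq_addHaar_image (volume : Measure (X n)) hUm
    (f' := fun y => fderiv ℝ H y)
    (fun y _ => ((hH.differentiable (by norm_num)) y).hasFDerivAt.hasFDerivWithinAt) hinj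
  have hnull : volume (H '' U) = 0 :=
    measure_mono_null (by rintro _ ⟨y, hy, rfl⟩; exact hy.2) hN0
  rw [hnull, setLIntegral_eq_zero_iff hUm] at h0
  · refine ⟨{y | H y ∈ N ∧ ¬jac H y = 0} ∩ e.source,
      inter_mem_nhdsWithin _ (e.open_source.mem_nhds ?_), ?_⟩
    · exact hst.mem_toOpenPartialHomeomorph_source
    · refine measure_mono_null (fun y hy => ?_) (ae_iff.1 h0)
      simp only [Set.mem_ofPred_eq, Classical.not_imp]
      refine ⟨⟨hy.2, hy.1.1⟩, fun h => hy.1.2 ?_⟩
      rw [ENNReal.ofReal_eq_zero, abs_nonpos_iff, ← jac_eq_det] at h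
      exact h
  · exact (ENNReal.continuous_ofReal.comp (continuous_abs.comp
      (ContinuousLinearMap.continuous_det.comp (hH.continuous_fderiv (by norm_num))))).measurable

end Vale.Agent.P127.Hoelder
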